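import Vale.Agent.P050.FkgBip

namespace Vale.Agent.P050

open Finset

theorem chain_weights {n : ℕ} (α : Fin n → ℝ) (s t : Fin n) :
    α s * α t ≤ α (s ⊓ t) * α (s ⊔ t) := by
  rcases le_total s t with h | h
  · rw [inf_eq_left.2 h, sup_eq_right.2 h]
  · rw [inf_eq_right.2 h, sup_eq_left.2 h, mul_comm]

theorem chain_count {a b s r : ℕ} (hs : 0 < s) (hr : 0 < r)
    (M : Fin s → Fin r → Prop) [∀ x y, Decidable (M x y)]
    (hMl : ∀ x x' y, x ≤ x' → M x y → M x' y) (hMr : ∀ x y y', y ≤ y' → M x y → M x y')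
    (E : Finset (Fin a × Fin b)) :
    (((univ.filter (fun q : Fin s × Fin r => M q.1 q.2)).card : ℝ) / (s * r)) ^ E.card
      ≤ ((univ.filter (fun z : (Fin a → Fin s) × (Fin b → Fin r) =>
          ∀ p ∈ E, M (z.1 p.1) (z.2 p.2))).card : ℝ) / (s ^ a * r ^ b) := by
  have hs' : (s : ℝ) ≠ 0 := by positivity
  have hr' : (r : ℝ) ≠ 0 := by positivity
  have h := fkg_bip (a := a) (b := b) (fun _ : Fin s => (1 : ℝ) / s) (fun _ : Fin r => (1 : ℝ) / r)
    (fun _ => by positivity) (fun _ => by positivity)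
    (by simp [hs']) (by simp [hr'])
    (chain_weights _) (chain_weights _)
    (fun x y => if M x y then (1 : ℝ) else 0)
    (fun x y => by split_ifs <;> norm_num)
    (fun x x' y hx => by
      by_cases h1 : M x y
      · simp [h1, hMl x x' y hx h1]
      · simp only [h1, if_false]
        split_ifs <;> norm_num)
    (fun x y y' hy => by
      by_cases h1 : M x y
      · simp [h1, hMr x y y' hy h1]
      · simp only [h1, if_false]
        split_ifs <;> norm_num) E
  have e1 : ∑ x : Fin s, ∑ y : Fin r, (1 : ℝ) / s * (1 / r) * (if M x y then (1 : ℝ) else 0)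
      = ((univ.filter (fun q : Fin s × Fin r => M q.1 q.2)).card : ℝ) / (s * r) := by
    rw [← Fintype.sum_prod_type' (f := fun x y => (1 : ℝ) / s * (1 / r) *
      (if M x y then (1 : ℝ) else 0)), ← mul_sum, sum_boole]
    field_simp
  have e2 : ∑ z : (Fin a → Fin s) × (Fin b → Fin r),
      (∏ _v : Fin a, (1 : ℝ) / s) * (∏ _v : Fin b, (1 : ℝ) / r) *
        ∏ p ∈ E, (if M (z.1 p.1) (z.2 p.2) then (1 : ℝ) else 0)
      = ((univ.filter (fun z : (Fin a → Fin s) × (Fin b → Fin r) =>
          ∀ p ∈ E, M (z.1 p.1) (z.2 p.2))).card : ℝ) / (s ^ a * r ^ b) := by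
    simp only [prod_boole]
    rw [← mul_sum, Finset.natCast_card_filter]
    simp only [prod_const, card_univ, Fintype.card_fin, one_div, inv_pow]
    rw [div_eq_mul_inv, mul_inv, mul_comm]
    congr 1
    apply Finset.sum_congr rfl
    intro z _
    split_ifs <;> rfl
  rw [e1, e2] at h
  exact h

end Vale.Agent.P050
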