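import Mathlib

/-! P050 (Sidorenko): homomorphism densities into finite weighted kernels. -/

namespace Vale.Agent.P050

open Finset

/-- Homomorphism density `t(H, W)` of the graph `H` on `Fin k` in the step kernel given by the
finite probability space `(X, α)` and the weight function `W`: the sum over all maps
`φ : V(H) → X` of `∏_v α (φ v) * ∏_{uv ∈ E(H)} W (φ u) (φ v)` (each edge taken once, as `u < v`). -/
def tdens {k : ℕ} {X : Type*} [Fintype X] (H : SimpleGraph (Fin k)) [DecidableRel H.Adj]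
    (α : X → ℝ) (W : X → X → ℝ) : ℝ :=
  ∑ φ : Fin k → X, (∏ v, α (φ v)) *
    ∏ p ∈ univ.filter (fun p : Fin k × Fin k => p.1 < p.2 ∧ H.Adj p.1 p.2), W (φ p.1) (φ p.2)

/-- Edge density `t(K_2, W)`. -/
def edens {X : Type*} [Fintype X] (α : X → ℝ) (W : X → X → ℝ) : ℝ :=
  ∑ x, ∑ y, α x * α y * W x y

end Vale.Agent.P050
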