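import Vale.Agent.P050.Defs

namespace Vale.Agent.P050

open Finset

theorem card_edges {k : ℕ} (H : SimpleGraph (Fin k)) [DecidableRel H.Adj] :
    (univ.filter (fun p : Fin k × Fin k => p.1 < p.2 ∧ H.Adj p.1 p.2)).card
      = H.edgeFinset.card := by
  apply Finset.card_bij (fun p _ => s(p.1, p.2))
  · intro p hp
    rw [SimpleGraph.mem_edgeFinset, SimpleGraph.mem_edgeSet]
    exact (mem_filter.1 hp).2.2
  · rintro ⟨a, b⟩ hp ⟨c, d⟩ hq h
    have h1 := (mem_filter.1 hp).2.1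
    have h2 := (mem_filter.1 hq).2.1
    simp only at h1 h2 h
    rcases Sym2.eq_iff.1 h with ⟨rfl, rfl⟩ | ⟨rfl, rfl⟩
    · rfl
    · exact absurd h1 (not_lt.2 h2.le)
  · intro e he
    induction e using Sym2.ind with
    | _ a b =>
      rw [SimpleGraph.mem_edgeFinset, SimpleGraph.mem_edgeSet] at he
      rcases lt_or_gt_of_ne he.ne with h | h
      · exact ⟨(a, b), mem_filter.2 ⟨mem_univ _, h, he⟩, rfl⟩
      · exact ⟨(b, a), mem_filter.2 ⟨mem_univ _, h, he.symm⟩, Sym2.eq_swap⟩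

end Vale.Agent.P050
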