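import Vale.Agent.P050.Marginal
import Vale.Agent.P050.Edges

namespace Vale.Agent.P050

open Finset

theorem fkg_edges {k : ℕ} {X : Type*} [DistribLattice X] [Fintype X] [DecidableEq X]
    (α : X → ℝ) (hα0 : ∀ x, 0 ≤ α x) (hα1 : ∑ x, α x = 1)
    (hα : ∀ a b, α a * α b ≤ α (a ⊓ b) * α (a ⊔ b))
    (W : X → X → ℝ) (hW0 : ∀ x y, 0 ≤ W x y)
    (hWl : ∀ x x' y, x ≤ x' → W x y ≤ W x' y) (hWr : ∀ x y y', y ≤ y' → W x y ≤ W x y')
    (E : Finset (Fin k × Fin k)) :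
    ∏ p ∈ E, (∑ φ : Fin k → X, (∏ v, α (φ v)) * W (φ p.1) (φ p.2))
      ≤ ∑ φ : Fin k → X, (∏ v, α (φ v)) * ∏ p ∈ E, W (φ p.1) (φ p.2) := by
  classical
  have hmono : ∀ p : Fin k × Fin k, Monotone (fun φ : Fin k → X => W (φ p.1) (φ p.2)) := by
    intro p φ ψ h
    exact (hWl _ _ _ (h p.1)).trans (hWr _ _ _ (h p.2))
  induction E using Finset.induction_on with
  | empty => simp [total_mass α hα1]
  | insert p E hp ih =>
    rw [prod_insert hp]
    have hfkg := fkg (μ := fun φ : Fin k → X => ∏ v, α (φ v))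
      (f := fun φ => W (φ p.1) (φ p.2)) (g := fun φ => ∏ q ∈ E, W (φ q.1) (φ q.2))
      (fun φ => prod_nonneg (fun v _ => hα0 _)) (fun φ => hW0 _ _)
      (fun φ => prod_nonneg (fun q _ => hW0 _ _)) (hmono p)
      (by
        intro φ ψ h
        exact prod_le_prod (fun q _ => hW0 _ _) (fun q _ => hmono q h))
      (by
        intro φ ψ
        simp only [← prod_mul_distrib]
        exact prod_le_prod (fun v _ => mul_nonneg (hα0 _) (hα0 _)) (fun v _ => hα _ _))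
    rw [total_mass α hα1, one_mul] at hfkg
    calc (∑ φ : Fin k → X, (∏ v, α (φ v)) * W (φ p.1) (φ p.2)) *
          ∏ q ∈ E, (∑ φ : Fin k → X, (∏ v, α (φ v)) * W (φ q.1) (φ q.2))
        ≤ (∑ φ : Fin k → X, (∏ v, α (φ v)) * W (φ p.1) (φ p.2)) *
          ∑ φ : Fin k → X, (∏ v, α (φ v)) * ∏ q ∈ E, W (φ q.1) (φ q.2) :=
          mul_le_mul_of_nonneg_left ih (sum_nonneg (fun φ _ =>
            mul_nonneg (prod_nonneg (fun v _ => hα0 _)) (hW0 _ _)))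
      _ ≤ ∑ φ : Fin k → X, (∏ v, α (φ v)) *
            (W (φ p.1) (φ p.2) * ∏ q ∈ E, W (φ q.1) (φ q.2)) := hfkg
      _ = ∑ φ : Fin k → X, (∏ v, α (φ v)) * ∏ q ∈ insert p E, W (φ q.1) (φ q.2) := by
          simp only [prod_insert hp]

theorem sidorenko_monotone {k : ℕ} {X : Type*} [DistribLattice X] [Fintype X] [DecidableEq X]
    (H : SimpleGraph (Fin k)) [DecidableRel H.Adj]
    (α : X → ℝ) (hα0 : ∀ x, 0 ≤ α x) (hα1 : ∑ x, α x = 1)
    (hα : ∀ a b, α a * α b ≤ α (a ⊓ b) * α (a ⊔ b))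
    (W : X → X → ℝ) (hW0 : ∀ x y, 0 ≤ W x y)
    (hWl : ∀ x x' y, x ≤ x' → W x y ≤ W x' y) (hWr : ∀ x y y', y ≤ y' → W x y ≤ W x y') :
    edens α W ^ H.edgeFinset.card ≤ tdens H α W := by
  have h := fkg_edges α hα0 hα1 hα W hW0 hWl hWr
    (univ.filter (fun p : Fin k × Fin k => p.1 < p.2 ∧ H.Adj p.1 p.2))
  unfold tdens
  refine le_trans (le_of_eq ?_) h
  rw [← card_edges H, ← prod_const]
  apply prod_congr rfl
  intro p hp
  have hlt := (mem_filter.1 hp).2.1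
  rw [marginal α hα1 W p.1 p.2 hlt.ne]
  rfl

end Vale.Agent.P050
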