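import Vale.Agent.P050.MarginalBip

namespace Vale.Agent.P050

open Finset

theorem fkg_bip {a b : ℕ} {X Y : Type*} [DistribLattice X] [Fintype X] [DecidableEq X]
    [DistribLattice Y] [Fintype Y] [DecidableEq Y]
    (α : X → ℝ) (β : Y → ℝ) (hα0 : ∀ x, 0 ≤ α x) (hβ0 : ∀ y, 0 ≤ β y)
    (hα1 : ∑ x, α x = 1) (hβ1 : ∑ y, β y = 1)
    (hα : ∀ s t, α s * α t ≤ α (s ⊓ t) * α (s ⊔ t))
    (hβ : ∀ s t, β s * β t ≤ β (s ⊓ t) * β (s ⊔ t))
    (W : X → Y → ℝ) (hW0 : ∀ x y, 0 ≤ W x y)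
    (hWl : ∀ x x' y, x ≤ x' → W x y ≤ W x' y) (hWr : ∀ x y y', y ≤ y' → W x y ≤ W x y')
    (E : Finset (Fin a × Fin b)) :
    (∑ x, ∑ y, α x * β y * W x y) ^ E.card
      ≤ ∑ z : (Fin a → X) × (Fin b → Y), (∏ v, α (z.1 v)) * (∏ v, β (z.2 v)) *
          ∏ p ∈ E, W (z.1 p.1) (z.2 p.2) := by
  classical
  have hmono : ∀ p : Fin a × Fin b,
      Monotone (fun z : (Fin a → X) × (Fin b → Y) => W (z.1 p.1) (z.2 p.2)) := by
    intro p z z' h
    exact (hWl _ _ _ (h.1 p.1)).trans (hWr _ _ _ (h.2 p.2))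
  have hμ0 : ∀ z : (Fin a → X) × (Fin b → Y), 0 ≤ (∏ v, α (z.1 v)) * (∏ v, β (z.2 v)) :=
    fun z => mul_nonneg (prod_nonneg (fun v _ => hα0 _)) (prod_nonneg (fun v _ => hβ0 _))
  induction E using Finset.induction_on with
  | empty => simp [total_mass_bip α β hα1 hβ1]
  | insert p E hp ih =>
    rw [card_insert_of_notMem hp, pow_succ']
    have hfkg := fkg
      (μ := fun z : (Fin a → X) × (Fin b → Y) => (∏ v, α (z.1 v)) * (∏ v, β (z.2 v)))
      (f := fun z => W (z.1 p.1) (z.2 p.2)) (g := fun z => ∏ q ∈ E, W (z.1 q.1) (z.2 q.2))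
      hμ0 (fun z => hW0 _ _)
      (fun z => prod_nonneg (fun q _ => hW0 _ _)) (hmono p)
      (by
        intro z z' h
        exact prod_le_prod (fun q _ => hW0 _ _) (fun q _ => hmono q h))
      (by
        intro z z'
        have h1 : (∏ v, α (z.1 v)) * (∏ v, α (z'.1 v))
            ≤ (∏ v, α ((z ⊓ z').1 v)) * (∏ v, α ((z ⊔ z').1 v)) := by
          simp only [← prod_mul_distrib]
          exact prod_le_prod (fun v _ => mul_nonneg (hα0 _) (hα0 _)) (fun v _ => hα _ _)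
        have h2 : (∏ v, β (z.2 v)) * (∏ v, β (z'.2 v))
            ≤ (∏ v, β ((z ⊓ z').2 v)) * (∏ v, β ((z ⊔ z').2 v)) := by
          simp only [← prod_mul_distrib]
          exact prod_le_prod (fun v _ => mul_nonneg (hβ0 _) (hβ0 _)) (fun v _ => hβ _ _)
        calc (∏ v, α (z.1 v)) * (∏ v, β (z.2 v)) * ((∏ v, α (z'.1 v)) * (∏ v, β (z'.2 v)))
            = ((∏ v, α (z.1 v)) * (∏ v, α (z'.1 v))) * ((∏ v, β (z.2 v)) * (∏ v, β (z'.2 v))) := by
              ring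
          _ ≤ ((∏ v, α ((z ⊓ z').1 v)) * (∏ v, α ((z ⊔ z').1 v))) *
              ((∏ v, β ((z ⊓ z').2 v)) * (∏ v, β ((z ⊔ z').2 v))) :=
              mul_le_mul h1 h2 (mul_nonneg (prod_nonneg (fun v _ => hβ0 _))
                (prod_nonneg (fun v _ => hβ0 _))) (mul_nonneg (prod_nonneg (fun v _ => hα0 _))
                (prod_nonneg (fun v _ => hα0 _)))
          _ = _ := by ring)
    rw [total_mass_bip α β hα1 hβ1, one_mul, marginal_bip α β hα1 hβ1 W p.1 p.2] at hfkg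
    have hnn : 0 ≤ ∑ x, ∑ y, α x * β y * W x y :=
      sum_nonneg (fun x _ => sum_nonneg (fun y _ =>
        mul_nonneg (mul_nonneg (hα0 _) (hβ0 _)) (hW0 _ _)))
    calc (∑ x, ∑ y, α x * β y * W x y) * (∑ x, ∑ y, α x * β y * W x y) ^ E.card
        ≤ (∑ x, ∑ y, α x * β y * W x y) *
          ∑ z : (Fin a → X) × (Fin b → Y), (∏ v, α (z.1 v)) * (∏ v, β (z.2 v)) *
            ∏ q ∈ E, W (z.1 q.1) (z.2 q.2) := mul_le_mul_of_nonneg_left ih hnn
      _ ≤ ∑ z : (Fin a → X) × (Fin b → Y), (∏ v, α (z.1 v)) * (∏ v, β (z.2 v)) *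
            (W (z.1 p.1) (z.2 p.2) * ∏ q ∈ E, W (z.1 q.1) (z.2 q.2)) := hfkg
      _ = _ := by simp only [prod_insert hp]

end Vale.Agent.P050
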