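import Vale.Agent.P050.Defs

/-! P050, PART M: marginals of a product measure on `Fin k → X`. -/

namespace Vale.Agent.P050

open Finset

theorem sum_prod_eq {k : ℕ} {X : Type*} [Fintype X] [DecidableEq X] (F : Fin k → X → ℝ) :
    ∑ φ : Fin k → X, ∏ v, F v (φ v) = ∏ v, ∑ z, F v z := by
  rw [Finset.prod_univ_sum, Fintype.piFinset_univ]

theorem total_mass {k : ℕ} {X : Type*} [Fintype X] [DecidableEq X] (α : X → ℝ)
    (hα1 : ∑ x, α x = 1) : ∑ φ : Fin k → X, ∏ v, α (φ v) = 1 := by
  rw [sum_prod_eq (fun _ => α)]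
  simp [hα1]

theorem marginal_point {k : ℕ} {X : Type*} [Fintype X] [DecidableEq X] (α : X → ℝ)
    (hα1 : ∑ x, α x = 1) (u w : Fin k) (huw : u ≠ w) (x y : X) :
    ∑ φ : Fin k → X, (∏ v, α (φ v)) * ((if φ u = x then 1 else 0) * (if φ w = y then 1 else 0))
      = α x * α y := by
  let F : Fin k → X → ℝ := fun v z =>
    if v = u then (if z = x then α z else 0) else if v = w then (if z = y then α z else 0) else α z
  have hA : ∀ φ : Fin k → X, (∏ v, α (φ v)) * ((if φ u = x then 1 else 0) *
      (if φ w = y then 1 else 0)) = ∏ v, F v (φ v) := by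
    intro φ
    by_cases h1 : φ u = x
    · by_cases h2 : φ w = y
      · rw [if_pos h1, if_pos h2, mul_one, mul_one]
        apply Finset.prod_congr rfl
        intro v _
        simp only [F]
        by_cases hv : v = u
        · subst hv
          simp [h1]
        · by_cases hv' : v = w
          · subst hv'
            simp [hv, h2]
          · simp [hv, hv']
      · rw [if_neg h2, mul_zero, mul_zero]
        symm
        apply Finset.prod_eq_zero (Finset.mem_univ w)
        simp [F, huw.symm, h2]
    · rw [if_neg h1, zero_mul, mul_zero]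
      symm
      apply Finset.prod_eq_zero (Finset.mem_univ u)
      simp [F, h1]
  rw [Finset.sum_congr rfl (fun φ _ => hA φ), sum_prod_eq F]
  rw [Finset.prod_eq_mul u w huw]
  · simp [F, huw.symm]
  · intro c _ hc
    simp [F, hc.1, hc.2, hα1]
  · intro h
    exact absurd (Finset.mem_univ u) h
  · intro h
    exact absurd (Finset.mem_univ w) h

theorem marginal {k : ℕ} {X : Type*} [Fintype X] [DecidableEq X] (α : X → ℝ)
    (hα1 : ∑ x, α x = 1) (g : X → X → ℝ) (u w : Fin k) (huw : u ≠ w) :
    ∑ φ : Fin k → X, (∏ v, α (φ v)) * g (φ u) (φ w) = ∑ x, ∑ y, α x * α y * g x y := by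
  have h1 : ∀ φ : Fin k → X, (∏ v, α (φ v)) * g (φ u) (φ w)
      = ∑ x, ∑ y, ((∏ v, α (φ v)) * ((if φ u = x then 1 else 0) * (if φ w = y then 1 else 0)))
          * g x y := by
    intro φ
    rw [Finset.sum_eq_single (φ u), Finset.sum_eq_single (φ w)]
    · simp
    · intro y _ hy
      simp [Ne.symm hy]
    · intro h
      exact absurd (Finset.mem_univ _) h
    · intro x _ hx
      simp [Ne.symm hx]
    · intro h
      exact absurd (Finset.mem_univ _) h
  rw [Finset.sum_congr rfl (fun φ _ => h1 φ), Finset.sum_comm]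
  apply Finset.sum_congr rfl
  intro x _
  rw [Finset.sum_comm]
  apply Finset.sum_congr rfl
  intro y _
  rw [← Finset.sum_mul, marginal_point α hα1 u w huw x y]

end Vale.Agent.P050
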