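import Vale.Agent.P050.Marginal

/-! P050: marginals of a product of two product measures. -/

namespace Vale.Agent.P050

open Finset

theorem marginal_one {k : ℕ} {X : Type*} [Fintype X] [DecidableEq X] (α : X → ℝ)
    (hα1 : ∑ x, α x = 1) (h : X → ℝ) (i : Fin k) :
    ∑ φ : Fin k → X, (∏ v, α (φ v)) * h (φ i) = ∑ x, α x * h x := by
  have hA : ∀ φ : Fin k → X, (∏ v, α (φ v)) * h (φ i)
      = ∏ v, (fun (v : Fin k) (z : X) => α z * (if v = i then h z else 1)) v (φ v) := by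
    intro φ
    simp only
    rw [Finset.prod_mul_distrib]
    congr 1
    rw [Finset.prod_eq_single i]
    · simp
    · intro b _ hb
      simp [hb]
    · intro hh
      exact absurd (Finset.mem_univ i) hh
  rw [Finset.sum_congr rfl (fun φ _ => hA φ),
    sum_prod_eq (fun (v : Fin k) (z : X) => α z * (if v = i then h z else 1))]
  rw [Finset.prod_eq_single i]
  · simp
  · intro b _ hb
    simp [hb, hα1]
  · intro hh
    exact absurd (Finset.mem_univ i) hh

theorem total_mass_bip {a b : ℕ} {X Y : Type*} [Fintype X] [DecidableEq X] [Fintype Y]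
    [DecidableEq Y] (α : X → ℝ) (β : Y → ℝ) (hα1 : ∑ x, α x = 1) (hβ1 : ∑ y, β y = 1) :
    ∑ z : (Fin a → X) × (Fin b → Y), (∏ v, α (z.1 v)) * (∏ v, β (z.2 v)) = 1 := by
  rw [Fintype.sum_prod_type]
  simp only
  have : ∀ φ : Fin a → X, ∑ ψ : Fin b → Y, (∏ v, α (φ v)) * (∏ v, β (ψ v)) = ∏ v, α (φ v) := by
    intro φ
    rw [← Finset.mul_sum, total_mass β hβ1, mul_one]
  rw [Finset.sum_congr rfl (fun φ _ => this φ), total_mass α hα1]

theorem marginal_bip {a b : ℕ} {X Y : Type*} [Fintype X] [DecidableEq X] [Fintype Y]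
    [DecidableEq Y] (α : X → ℝ) (β : Y → ℝ) (hα1 : ∑ x, α x = 1) (hβ1 : ∑ y, β y = 1)
    (g : X → Y → ℝ) (i : Fin a) (j : Fin b) :
    ∑ z : (Fin a → X) × (Fin b → Y), (∏ v, α (z.1 v)) * (∏ v, β (z.2 v)) * g (z.1 i) (z.2 j)
      = ∑ x, ∑ y, α x * β y * g x y := by
  rw [Fintype.sum_prod_type]
  simp only
  have h1 : ∀ φ : Fin a → X,
      ∑ ψ : Fin b → Y, (∏ v, α (φ v)) * (∏ v, β (ψ v)) * g (φ i) (ψ j)
        = (∏ v, α (φ v)) * (fun x => ∑ y, β y * g x y) (φ i) := by
    intro φ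
    simp only
    rw [← marginal_one β hβ1 (fun y => g (φ i) y) j, Finset.mul_sum]
    apply Finset.sum_congr rfl
    intro ψ _
    ring
  rw [Finset.sum_congr rfl (fun φ _ => h1 φ), marginal_one α hα1 (fun x => ∑ y, β y * g x y) i]
  apply Finset.sum_congr rfl
  intro x _
  rw [Finset.mul_sum]
  apply Finset.sum_congr rfl
  intro y _
  ring

end Vale.Agent.P050
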