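import Vale.Agent.P050.ChainCount

namespace Vale.Agent.P050

open Finset

/-! PART L2 -/
theorem hom_lower {a b s r : ℕ} (ha : 0 < a) (H : SimpleGraph (Fin a ⊕ Fin b))
    [DecidableRel H.Adj] (G : SimpleGraph (Fin s ⊕ Fin r)) [DecidableRel G.Adj]
    (h1 : ∀ i i', ¬ H.Adj (Sum.inl i) (Sum.inl i')) (h2 : ∀ j j', ¬ H.Adj (Sum.inr j) (Sum.inr j')) :
    (univ.filter (fun z : (Fin a → Fin s) × (Fin b → Fin r) =>
        ∀ p ∈ univ.filter (fun p : Fin a × Fin b => H.Adj (Sum.inl p.1) (Sum.inr p.2)),
          G.Adj (Sum.inl (z.1 p.1)) (Sum.inr (z.2 p.2)))).card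
    + (univ.filter (fun z : (Fin b → Fin s) × (Fin a → Fin r) =>
        ∀ p ∈ univ.filter (fun p : Fin b × Fin a => H.Adj (Sum.inl p.2) (Sum.inr p.1)),
          G.Adj (Sum.inl (z.1 p.1)) (Sum.inr (z.2 p.2)))).card
    ≤ (univ.filter (fun f : Fin a ⊕ Fin b → Fin s ⊕ Fin r =>
        ∀ u v, H.Adj u v → G.Adj (f u) (f v))).card := by
  classical
  let FA : (Fin a → Fin s) × (Fin b → Fin r) → (Fin a ⊕ Fin b → Fin s ⊕ Fin r) :=
    fun z => Sum.elim (fun i => Sum.inl (z.1 i)) (fun j => Sum.inr (z.2 j))
  let FB : (Fin b → Fin s) × (Fin a → Fin r) → (Fin a ⊕ Fin b → Fin s ⊕ Fin r) :=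
    fun z => Sum.elim (fun i => Sum.inr (z.2 i)) (fun j => Sum.inl (z.1 j))
  have injA : Function.Injective FA := by
    intro z w h
    apply Prod.ext
    · funext i
      have := congrFun h (Sum.inl i)
      simpa [FA] using this
    · funext j
      have := congrFun h (Sum.inr j)
      simpa [FA] using this
  have injB : Function.Injective FB := by
    intro z w h
    apply Prod.ext
    · funext j
      have := congrFun h (Sum.inr j)
      simpa [FB] using this
    · funext i
      have := congrFun h (Sum.inl i)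
      simpa [FB] using this
  rw [← card_image_of_injective _ injA, ← card_image_of_injective _ injB]
  rw [← card_union_of_disjoint]
  · apply card_le_card
    apply union_subset
    · intro f hf
      obtain ⟨z, hz, rfl⟩ := mem_image.1 hf
      rw [mem_filter] at hz ⊢
      refine ⟨mem_univ _, ?_⟩
      have hz2 := hz.2
      intro u v huv
      rcases u with i | j <;> rcases v with i' | j'
      · exact absurd huv (h1 _ _)
      · exact hz2 (i, j') (by simpa using huv)
      · exact (hz2 (i', j) (by simpa using huv.symm)).symm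
      · exact absurd huv (h2 _ _)
    · intro f hf
      obtain ⟨z, hz, rfl⟩ := mem_image.1 hf
      rw [mem_filter] at hz ⊢
      refine ⟨mem_univ _, ?_⟩
      have hz2 := hz.2
      intro u v huv
      rcases u with i | j <;> rcases v with i' | j'
      · exact absurd huv (h1 _ _)
      · exact (hz2 (j', i) (by simpa using huv)).symm
      · exact hz2 (j, i') (by simpa using huv.symm)
      · exact absurd huv (h2 _ _)
  · rw [disjoint_left]
    intro f hfA hfB
    obtain ⟨z, _, rfl⟩ := mem_image.1 hfA
    obtain ⟨w, _, hw⟩ := mem_image.1 hfB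
    have := congrFun hw (Sum.inl ⟨0, ha⟩)
    simp [FA, FB] at this

end Vale.Agent.P050
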