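import Vale.Agent.P050.ChainCount

namespace Vale.Agent.P050

open Finset

theorem numeric_xy (a b e : ℕ) (ha : 0 < a) (hb : 0 < b) (he : a + b ≤ e + 1) (x y : ℝ)
    (hx0 : 0 < x) (hy0 : 0 < y) (hxy : x + y = 1) :
    (2 * (x * y)) ^ e ≤ x ^ a * y ^ b + x ^ b * y ^ a := by
  obtain ⟨t, ht⟩ : ∃ t, t = x * y := ⟨_, rfl⟩
  rw [← ht]
  have ht0 : 0 < t := by rw [ht]; positivity
  have ht4 : 4 * t ≤ 1 := by
    rw [ht]
    nlinarith [sq_nonneg (x - y)]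
  have h1 : (2 * t) ^ e ≤ (2 * t) ^ (a + b - 1) :=
    pow_le_pow_of_le_one (by positivity) (by linarith) (by omega)
  refine h1.trans ?_
  obtain ⟨u, hu⟩ : ∃ u, u = x ^ a * y ^ b := ⟨_, rfl⟩
  obtain ⟨v, hv⟩ : ∃ v, v = x ^ b * y ^ a := ⟨_, rfl⟩
  rw [← hu, ← hv]
  have hu0 : 0 < u := by rw [hu]; positivity
  have hv0 : 0 < v := by rw [hv]; positivity
  have huv : u * v = t ^ (a + b) := by
    rw [hu, hv, ht, mul_pow, pow_add, pow_add]
    ring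
  have h2 : ((2 * t) ^ (a + b - 1)) ^ 2 ≤ (u + v) ^ 2 := by
    have h3 : 4 * (u * v) ≤ (u + v) ^ 2 := by nlinarith [sq_nonneg (u - v)]
    refine le_trans ?_ h3
    rw [huv]
    obtain ⟨n, hn⟩ : ∃ n, a + b = n + 2 := ⟨a + b - 2, by omega⟩
    rw [hn]
    have e0 : n + 2 - 1 = n + 1 := by omega
    rw [e0]
    have e3 : ((2 * t) ^ (n + 1)) ^ 2 = (4 * t) ^ n * (4 * t ^ (n + 2)) := by
      calc ((2 * t) ^ (n + 1)) ^ 2 = ((2 * t) ^ 2) ^ (n + 1) := by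
            rw [← pow_mul, ← pow_mul, Nat.mul_comm]
        _ = ((4 * t) * t) ^ (n + 1) := by
            congr 1
            ring
        _ = (4 * t) ^ (n + 1) * t ^ (n + 1) := mul_pow _ _ _
        _ = (4 * t) ^ n * (4 * t ^ (n + 2)) := by ring
    rw [e3]
    have h4 : (4 * t) ^ n ≤ 1 := pow_le_one₀ (by positivity) ht4
    calc (4 * t) ^ n * (4 * t ^ (n + 2)) ≤ 1 * (4 * t ^ (n + 2)) :=
          mul_le_mul_of_nonneg_right h4 (by positivity)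
      _ = 4 * t ^ (n + 2) := one_mul _
  exact (pow_le_pow_iff_left₀ (by positivity) (by positivity) two_ne_zero).1 h2

theorem numeric_sym (a b s r e : ℕ) (ha : 0 < a) (hb : 0 < b) (hs : 0 < s) (hr : 0 < r)
    (he : a + b ≤ e + 1) :
    (2 * (s : ℝ) * r / ((s : ℝ) + r) ^ 2) ^ e
      ≤ ((s : ℝ) ^ a * r ^ b + (s : ℝ) ^ b * r ^ a) / ((s : ℝ) + r) ^ (a + b) := by
  have hs' : (0 : ℝ) < s := by exact_mod_cast hs
  have hr' : (0 : ℝ) < r := by exact_mod_cast hr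
  have hS0 : (0 : ℝ) < (s : ℝ) + r := by positivity
  have key := numeric_xy a b e ha hb he ((s : ℝ) / ((s : ℝ) + r)) ((r : ℝ) / ((s : ℝ) + r))
    (by positivity) (by positivity) (by rw [← add_div]; exact div_self hS0.ne')
  have e1 : 2 * (s : ℝ) * r / ((s : ℝ) + r) ^ 2
      = 2 * ((s : ℝ) / ((s : ℝ) + r) * ((r : ℝ) / ((s : ℝ) + r))) := by
    field_simp
  have e2 : ((s : ℝ) ^ a * r ^ b + (s : ℝ) ^ b * r ^ a) / ((s : ℝ) + r) ^ (a + b)
      = ((s : ℝ) / ((s : ℝ) + r)) ^ a * ((r : ℝ) / ((s : ℝ) + r)) ^ b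
        + ((s : ℝ) / ((s : ℝ) + r)) ^ b * ((r : ℝ) / ((s : ℝ) + r)) ^ a := by
    rw [div_pow, div_pow, div_pow, div_pow, pow_add]
    field_simp
  rw [e1, e2]
  exact key

end Vale.Agent.P050
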