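import Vale.Agent.P050.ChainCount

namespace Vale.Agent.P050

open Finset

/-! PART L4 -/
theorem card_swap {a b : ℕ} (H : SimpleGraph (Fin a ⊕ Fin b)) [DecidableRel H.Adj] :
    (univ.filter (fun p : Fin b × Fin a => H.Adj (Sum.inl p.2) (Sum.inr p.1))).card
      = (univ.filter (fun p : Fin a × Fin b => H.Adj (Sum.inl p.1) (Sum.inr p.2))).card := by
  apply Finset.card_bij (fun p _ => (p.2, p.1))
  · intro p hp
    simpa using hp
  · intro p _ q _ h
    have h1 := congrArg Prod.fst h
    have h2 := congrArg Prod.snd h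
    exact Prod.ext h2 h1
  · intro q hq
    exact ⟨(q.2, q.1), by simpa using hq, rfl⟩

end Vale.Agent.P050
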