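import Vale.Agent.P050.SymL1
import Vale.Agent.P050.SymL2
import Vale.Agent.P050.SymL3
import Vale.Agent.P050.SymL4

namespace Vale.Agent.P050

open Finset

theorem chain_sym {a b s r : ℕ} (ha : 0 < a) (hb : 0 < b) (hs : 0 < s) (hr : 0 < r)
    (H : SimpleGraph (Fin a ⊕ Fin b)) [DecidableRel H.Adj]
    (G : SimpleGraph (Fin s ⊕ Fin r)) [DecidableRel G.Adj]
    (hH1 : ∀ i i', ¬ H.Adj (Sum.inl i) (Sum.inl i'))
    (hH2 : ∀ j j', ¬ H.Adj (Sum.inr j) (Sum.inr j'))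
    (hG1 : ∀ x x', ¬ G.Adj (Sum.inl x) (Sum.inl x'))
    (hG2 : ∀ y y', ¬ G.Adj (Sum.inr y) (Sum.inr y'))
    (hGl : ∀ x x' y, x ≤ x' → G.Adj (Sum.inl x) (Sum.inr y) → G.Adj (Sum.inl x') (Sum.inr y))
    (hGr : ∀ x y y', y ≤ y' → G.Adj (Sum.inl x) (Sum.inr y) → G.Adj (Sum.inl x) (Sum.inr y'))
    (he : a + b ≤ H.edgeFinset.card + 1) :
    (2 * (G.edgeFinset.card : ℝ) / ((s : ℝ) + r) ^ 2) ^ H.edgeFinset.card
      ≤ ((univ.filter (fun f : Fin a ⊕ Fin b → Fin s ⊕ Fin r =>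
          ∀ u v, H.Adj u v → G.Adj (f u) (f v))).card : ℝ) / ((s : ℝ) + r) ^ (a + b) := by
  have hs' : (0 : ℝ) < s := by exact_mod_cast hs
  have hr' : (0 : ℝ) < r := by exact_mod_cast hr
  have c1 := chain_count (a := a) (b := b) hs hr
    (fun x y => G.Adj (Sum.inl x) (Sum.inr y)) hGl hGr
    (univ.filter (fun p : Fin a × Fin b => H.Adj (Sum.inl p.1) (Sum.inr p.2)))
  have c2 := chain_count (a := b) (b := a) hs hr
    (fun x y => G.Adj (Sum.inl x) (Sum.inr y)) hGl hGr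
    (univ.filter (fun p : Fin b × Fin a => H.Adj (Sum.inl p.2) (Sum.inr p.1)))
  have hl := hom_lower ha H G hH1 hH2
  rw [card_swap H, edges_sum H hH1 hH2] at c2
  rw [edges_sum H hH1 hH2] at c1
  rw [edges_sum G hG1 hG2] at c1 c2
  have hn := numeric_sym a b s r H.edgeFinset.card ha hb hs hr he
  set e := H.edgeFinset.card with he_def
  set g : ℝ := (G.edgeFinset.card : ℝ) with hg_def
  set N1 := (univ.filter (fun z : (Fin a → Fin s) × (Fin b → Fin r) =>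
        ∀ p ∈ univ.filter (fun p : Fin a × Fin b => H.Adj (Sum.inl p.1) (Sum.inr p.2)),
          G.Adj (Sum.inl (z.1 p.1)) (Sum.inr (z.2 p.2)))).card with hN1
  set N2 := (univ.filter (fun z : (Fin b → Fin s) × (Fin a → Fin r) =>
        ∀ p ∈ univ.filter (fun p : Fin b × Fin a => H.Adj (Sum.inl p.2) (Sum.inr p.1)),
          G.Adj (Sum.inl (z.1 p.1)) (Sum.inr (z.2 p.2)))).card with hN2
  set N := (univ.filter (fun f : Fin a ⊕ Fin b → Fin s ⊕ Fin r =>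
        ∀ u v, H.Adj u v → G.Adj (f u) (f v))).card with hN
  have hl' : (N1 : ℝ) + N2 ≤ N := by exact_mod_cast hl
  have hg0 : 0 ≤ g := Nat.cast_nonneg _
  have ht0 : 0 ≤ (g / (s * r)) ^ e := by positivity
  rw [le_div_iff₀ (by positivity)] at c1 c2
  have key : (2 * g / ((s : ℝ) + r) ^ 2) ^ e
      = (g / (s * r)) ^ e * (2 * (s : ℝ) * r / ((s : ℝ) + r) ^ 2) ^ e := by
    rw [← mul_pow]
    congr 1
    field_simp
  rw [key]
  calc (g / (s * r)) ^ e * (2 * (s : ℝ) * r / ((s : ℝ) + r) ^ 2) ^ e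
      ≤ (g / (s * r)) ^ e *
        (((s : ℝ) ^ a * r ^ b + (s : ℝ) ^ b * r ^ a) / ((s : ℝ) + r) ^ (a + b)) :=
        mul_le_mul_of_nonneg_left hn ht0
    _ = ((g / (s * r)) ^ e * ((s : ℝ) ^ a * r ^ b) + (g / (s * r)) ^ e * ((s : ℝ) ^ b * r ^ a))
          / ((s : ℝ) + r) ^ (a + b) := by ring
    _ ≤ (N : ℝ) / ((s : ℝ) + r) ^ (a + b) := by
        apply div_le_div_of_nonneg_right _ (by positivity)
        linarith

end Vale.Agent.P050
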