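import Vale.Agent.P050.ChainCount

namespace Vale.Agent.P050

open Finset

theorem edges_sum {a b : ℕ} (K : SimpleGraph (Fin a ⊕ Fin b)) [DecidableRel K.Adj]
    (h1 : ∀ i i', ¬ K.Adj (Sum.inl i) (Sum.inl i')) (h2 : ∀ j j', ¬ K.Adj (Sum.inr j) (Sum.inr j')) :
    (univ.filter (fun p : Fin a × Fin b => K.Adj (Sum.inl p.1) (Sum.inr p.2))).card
      = K.edgeFinset.card := by
  apply Finset.card_bij (fun p _ => s(Sum.inl p.1, Sum.inr p.2))
  · intro p hp
    rw [SimpleGraph.mem_edgeFinset, SimpleGraph.mem_edgeSet]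
    exact (Finset.mem_filter.1 hp).2
  · intro p _ p' _ h
    rw [Sym2.eq_iff] at h
    rcases h with ⟨e1, e2⟩ | ⟨e1, _⟩
    · exact Prod.ext (Sum.inl_injective e1) (Sum.inr_injective e2)
    · exact absurd e1 (by simp)
  · intro e he
    induction e using Sym2.ind with
    | _ u v =>
      rw [SimpleGraph.mem_edgeFinset, SimpleGraph.mem_edgeSet] at he
      rcases u with i | j <;> rcases v with i' | j'
      · exact absurd he (h1 i i')
      · exact ⟨(i, j'), by simp [he], rfl⟩
      · exact ⟨(i', j), by simp [he.symm], Sym2.eq_swap⟩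
      · exact absurd he (h2 j j')

end Vale.Agent.P050
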